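import Vale.Agent.P181.DX.Defs
import Vale.Agent.P181.DU8.MainU

set_option autoImplicit false

/-!
# P181, DX (X8): the assembly `AsmX`
-/

namespace Vale.Agent.P181.DX.H357

open MvPolynomial
open Vale.Agent.P181.T4 (HW ex low ex_of_lt ex_anti low_anti)
open Vale.Agent.P181.H280 (plethMult hwSpace)
open Vale.Agent.P181.H463 (gt)
open Vale.Agent.P181.H503 (gt_congr ex_low)
open Vale.Agent.P181.SZ
open Vale.Agent.P181.PL (PieS dn)
open Vale.Agent.P181.PL5 (gt_branch ex_val)
open Vale.Agent.P181.DG Vale.Agent.P181.DU Vale.Agent.P181.DU.S317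
open Vale.Agent.P181.DG8 (mem_KT card_KT tel sum_pairs dn_one disG markedR)
open Vale.Agent.P181.DU8 (core_low core_upW core_mark shG)

open scoped Classical in
/-- **(X8)** -/
theorem asmX (hMono : MonoT) (hUp : UpT) (hLow : LowU) (hDis : DisT) (hSh : ShiftT)
    (hFew : FewT) (hM : MarkT) (hFl : FlowW) (hFlX : DX.FlowX) (hU : UpperS) (hUA : UpperA)
    (hLA : LowerA) (hP : PieS) : DX.AsmX := by
  intro a b n R X Z K w a0 b0 lam nu hlam hsum hpos hR1 hRn hw hZ1 hZ2 hK hKX hXZ hwX hKa hab'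
    hX3 hZa ha0 ha0a hbig hb0 hle hst hwnu hfinal
  obtain ⟨m, rfl⟩ : ∃ m, n = m + 1 := ⟨n - 1, by omega⟩
  have hw' : ∑ i, tl lam i = w := by rw [hw, dn_one]
  rw [dn_one] at hwnu
  obtain ⟨S, hS⟩ : ∃ S, S = (Z + 1) * X := ⟨_, rfl⟩
  have hX1 : 1 ≤ X := by omega
  have hZ0 : 1 ≤ Z := by omega
  have hS1 : Z + 1 ≤ S := by
    rw [hS]
    exact Nat.le_mul_of_pos_right _ (by omega)
  have hSX : X ≤ S := by
    rw [hS]
    exact Nat.le_mul_of_pos_left _ (by omega)
  have hKS : S ≤ K * S := Nat.le_mul_of_pos_left _ (by omega)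
  have hKa' : 100 * (K * S) ≤ a := by
    rw [hS]
    calc 100 * (K * ((Z + 1) * X)) = 100 * K * ((Z + 1) * X) := by ring
      _ ≤ a := hKa
  have haw : a ≤ w := by omega
  have haw3 : a + 3 ≤ w := by
    have g1 : 1 * 3 ≤ a0 * (a0 + 2) := Nat.mul_le_mul (by omega) (by omega)
    omega
  have hS2 : (Z + 1) * 4 ≤ S := by
    rw [hS]
    exact Nat.mul_le_mul_left _ (by omega)
  have ha1 : 1 ≤ a := by omega
  have hS4 : 4 ≤ S := by omega
  -- the numbers of the flows
  have hKS3 : 100 * (3 * K * S) ≤ a := by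
    have g1 : 300 * K ≤ X * X := by
      calc 300 * K ≤ 32 * (16 * K) := by omega
        _ ≤ X * X := Nat.mul_le_mul (by omega) (by omega)
    have g2 : 300 * K * S ≤ X * X * S := Nat.mul_le_mul_right _ g1
    have g3 : X * X * S = (Z + 1) * X ^ 3 := by rw [hS]; ring
    have g4 : 100 * (3 * K * S) = 300 * K * S := by ring
    omega
  have hwX4 : w * X ^ 4 ≤ S * a := by
    calc w * X ^ 4 ≤ (Z + 1) ^ 2 * X ^ 4 := Nat.mul_le_mul_right _ hZ2.le
      _ = S * ((Z + 1) * X ^ 3) := by rw [hS]; ring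
      _ ≤ S * a := Nat.mul_le_mul_left _ hX3
  have hwX3 : w * X ^ 3 ≤ a ^ 2 := by
    calc w * X ^ 3 ≤ (Z + 1) ^ 2 * X ^ 3 := Nat.mul_le_mul_right _ hZ2.le
      _ ≤ (Z + 1) ^ 2 * (X ^ 3) ^ 2 :=
        Nat.mul_le_mul_left _ (Nat.le_self_pow (by norm_num) _)
      _ = ((Z + 1) * X ^ 3) ^ 2 := by ring
      _ ≤ a ^ 2 := Nat.pow_le_pow_left hX3 2
  have hpow : 4 * ((w + 1) * (a + 2) ^ 2) ≤ X ^ (3 * K) := by
    have f1 : X ^ (3 * K) = (X ^ K) ^ 3 := by rw [mul_comm, pow_mul]
    have f2 : (4 * w) ^ 3 ≤ (X ^ K) ^ 3 := Nat.pow_le_pow_left hwX 3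
    have f3 : (w + 1) * (a + 2) ^ 2 ≤ (2 * w) * w ^ 2 :=
      Nat.mul_le_mul (by omega) (Nat.pow_le_pow_left (by omega) 2)
    have f5 : (4 * w) ^ 3 = 64 * (w * w * w) := by ring
    have f6 : (2 * w) * w ^ 2 = 2 * (w * w * w) := by ring
    rw [f1]
    omega
  -- the size of the contents
  have hcard : ∀ k ∈ KT w S, 3 * Multiset.card k + 1 ≤ Z := by
    intro k hk
    have h1 := card_KT (by omega) hk
    have h2 : Multiset.card k * X < Z + 1 := by
      by_contra h
      have h3 : (Z + 1) * (Z + 1) ≤ (Z + 1) * (Multiset.card k * X) :=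
        Nat.mul_le_mul_left _ (by omega)
      have h4 : (Z + 1) * (Multiset.card k * X) = Multiset.card k * S := by rw [hS]; ring
      have h5 : (Z + 1) ^ 2 = (Z + 1) * (Z + 1) := sq _
      omega
    have h3 : Multiset.card k * 32 ≤ Multiset.card k * X := Nat.mul_le_mul_left _ (by omega)
    omega
  -- `J`
  have e1 : Z * X ^ 2 = Z * X * X := by ring
  have e2 : Z * X * (16 * K + 16) ≤ Z * X * X := Nat.mul_le_mul_left _ hKX
  have e3 : Z * X * (16 * K + 16) = 16 * (K * (Z * X)) + 16 * (Z * X) := by ring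
  have e4 : K * S = K * (Z * X) + K * X := by rw [hS]; ring
  have e4' : S = Z * X + X := by rw [hS]; ring
  have e5 : K * X ≤ K * (Z * X) := Nat.mul_le_mul_left _ (Nat.le_mul_of_pos_left _ hZ0)
  have e5' : X ≤ Z * X := Nat.le_mul_of_pos_left _ hZ0
  have e6 : 1 ≤ Z * X := Nat.mul_pos hZ0 hX1
  have e7 : (2 * (3 * K) + 3) * S = 6 * (K * S) + 3 * S := by ring
  have e8 : (2 * (3 * K) + 5) * S = 6 * (K * S) + 5 * S := by ring
  obtain ⟨J, hJ, hJ1, hJ2⟩ : ∃ J, ((m + 1 ≤ Z * X ^ 2 → J = Z * X ^ 2) ∧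
      (¬ m + 1 ≤ Z * X ^ 2 → J + 1 = Z * X ^ 2)) ∧ J ≤ Z * X ^ 2 ∧ Z * X ^ 2 ≤ J + 1 := by
    by_cases h : m + 1 ≤ Z * X ^ 2
    · exact ⟨Z * X ^ 2, ⟨fun _ => rfl, fun h' => absurd h h'⟩, le_rfl, by omega⟩
    · exact ⟨Z * X ^ 2 - 1, ⟨fun h' => absurd h' h, fun _ => by omega⟩, by omega, by omega⟩
  have hSJ : S ≤ J := by omega
  have hZJ : Z ≤ J := by omega
  -- the functions
  obtain ⟨N, hN⟩ : ∃ N : Multiset ℕ → ℕ → ℕ, N = NT m S (tl lam) := ⟨_, rfl⟩
  have hNm : ∀ k t, N k t ≤ N k (t + 1) := fun k t => by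
    rw [hN]
    exact hMono m S (tl lam) k t (by omega)
  have hDG : DisG S fun k t => N k t - N k (t - 1) := by
    rw [hN]
    exact disG hMono hDis hS4 (tl lam)
  have hup := (hUA a b m lam).trans (hUp a b m S (tl lam) (by omega))
  -- low degree
  have hdeg : 2 * ∑ i, tl lam i ≤ b * (S - 1) := by
    rw [hw']
    have g1 : (Z + 1) ^ 2 = (Z + 1) * (Z + 1) := sq _
    have g2 : 2 * (Z + 1) * (Z + 1) ≤ b * (S - 1) := Nat.mul_le_mul (by omega) (by omega)
    have g3 : 2 * (Z + 1) * (Z + 1) = 2 * ((Z + 1) * (Z + 1)) := by ring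
    omega
  have hSG : ShG fun k t => N k t - N k (t - 1) := by
    rw [hN]
    exact shG hMono hSh (by omega) (tl lam)
  have hlow := (hLow a b m S (tl lam) (by omega) (by omega) hdeg).trans (hLA a b m lam hsum)
  have hfew := hFew m S J (tl lam) (by omega)
  rw [hw', ← hN] at hup hlow hfew
  have hc1 : ∀ k ∈ KT w S, Multiset.card k ≤ a := by
    intro k hk
    have := hcard k hk
    omega
  have hc2 : ∀ k ∈ KT w S, Multiset.card k ≤ J := by
    intro k hk
    have := hcard k hk
    omega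
  have h1 := core_low (b := b) hNm (by omega) hc1
  have h2 := core_upW (b := b) hNm (show J ≤ a by omega) hc2
  have h3 : 3 * ∑ p ∈ (KT w S ×ˢ Finset.range (a + 2)).filter (BadW a b (J + 1)),
      (N p.1 p.2 - N p.1 (p.2 - 1)) ≤
      ∑ p ∈ (KT w S ×ˢ Finset.range (a + 2)).filter (GoodW a b),
        (N p.1 p.2 - N p.1 (p.2 - 1)) := by
    have hwS : w * X ^ 2 ≤ S ^ 2 := by
      rw [hS, mul_pow]
      exact Nat.mul_le_mul_right _ hZ2.le
    by_cases hbX : b ≤ a + X
    · exact hFlX (fun k t => N k t - N k (t - 1)) a b (J + 1) S (3 * K) X w hDG hSG (by omega)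
        hS4 (by omega) (by omega) hSX hwS hpow (by omega) (by omega) hwX4 hwX3 hKS3 hab' hbX
    · exact hFl (fun k t => N k t - N k (t - 1)) a b (J + 1) S (3 * K) X w hDG hSG (by omega)
        hS4 (by omega) hwS hpow (by omega) (by omega) (by
        have f1 : (16 * ((Z + 1) * X)) ^ 2 ≤ a ^ 2 := by
          apply Nat.pow_le_pow_left
          rw [← hS]
          omega
        have f2 : 16 * (w * X) ≤ (16 * ((Z + 1) * X)) ^ 2 := by
          calc 16 * (w * X) ≤ 256 * ((Z + 1) ^ 2 * X ^ 2) := by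
                apply Nat.mul_le_mul (by norm_num)
                exact Nat.mul_le_mul hZ2.le (Nat.le_self_pow (by norm_num) X)
            _ = (16 * ((Z + 1) * X)) ^ 2 := by ring
        exact f2.trans f1) (by omega)
  have hGW : GoodW = GoodV := rfl
  rw [hGW] at h3
  set Good := ∑ p ∈ (KT w S ×ˢ Finset.range (a + 2)).filter (GoodV a b),
    (N p.1 p.2 - N p.1 (p.2 - 1)) with hGood
  set Bad := ∑ p ∈ (KT w S ×ˢ Finset.range (a + 2)).filter (BadW a b (J + 1)),
    (N p.1 p.2 - N p.1 (p.2 - 1)) with hBad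
  set Few := ∑ k ∈ (KT w S).filter (fun k => Multiset.card k ≤ J), N k (J - Multiset.card k)
    with hFewdef
  set A0 := ∑ k ∈ (KT w S).filter (fun k => ∀ x ∈ k, x ≤ a), N k (a - Multiset.card k)
    with hA0
  have h3' : 3 * Bad ≤ Good := h3
  -- the few letters against the good states
  have hfg : 2 * Few ≤ Good := by
    by_cases hnJ : m + 1 ≤ Z * X ^ 2
    · have hJe := hJ.1 hnJ
      have hbig' := hfinal hnJ
      have hmark := markedR (b0 := b0) hU hP hM (m := m) (S := S) (a0 := a0) (w := w) (a := a)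
        (lam := lam) (nu := nu) hS4 (by
          by_contra h
          have g1 : S * S ≤ a0 * (a0 + 2) := Nat.mul_le_mul (by omega) (by omega)
          have g2 : (Z + 1) * (Z + 1) ≤ S * S := Nat.mul_le_mul hS1 hS1
          have g3 : (Z + 1) ^ 2 = (Z + 1) * (Z + 1) := sq _
          omega) (by omega) hw' hwnu
        (fun i => hle i.succ (by simp))
        (fun i => by
          have h1 := hst i.succ (by simp)
          rw [Fin.val_succ] at h1
          rw [ex_tl]
          exact h1)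
      rw [← hN] at hmark
      have hmk : N {a} (3 * b0) ≤ N {a} (J - 1) + Good := by
        by_cases hJb : J - 1 ≤ 3 * b0
        · have g1 := tel (hNm {a}) hJb
          have g2 := core_mark (J := J - 1) (w := w) hDG (show 1 ≤ S by omega) (by omega)
            (show 3 * b0 + 3 ≤ a by omega) haw hab'
          omega
        · have g1 : N {a} (3 * b0) ≤ N {a} (J - 1) :=
            monotone_nat_of_le_succ (hNm {a}) (by omega)
          omega
      have hsf : N {a} (J - 1) ≤ Few := by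
        have g1 : ({a} : Multiset ℕ) ∈ (KT w S).filter (fun k => Multiset.card k ≤ J) := by
          rw [Finset.mem_filter, mem_KT (by omega)]
          refine ⟨⟨?_, ?_⟩, ?_⟩
          · rw [Multiset.sum_singleton]
            exact haw
          · intro x hx
            rw [Multiset.mem_singleton] at hx
            omega
          · rw [Multiset.card_singleton]
            omega
        have g2 := Finset.single_le_sum (f := fun k : Multiset ℕ => N k (J - Multiset.card k))
          (fun _ _ => Nat.zero_le _) g1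
        simp only [Multiset.card_singleton] at g2
        exact g2
      have hbr : gt (m + 1 - (R + 1)) (Z * X ^ 2) (low (R + 1) lam) ≤
          gt (m + 1 - R) (Z * X ^ 2 + 1) (low R nu) := by
        apply gt_branch
        · intro i hi hin
          have h1 := hst ⟨i, hin⟩ (by simp; omega)
          rw [← ex_val nu ⟨i, hin⟩] at h1
          exact h1
        · intro i hi hin
          have h1 := hle ⟨i, hin⟩ (by simp; omega)
          rw [← ex_val nu ⟨i, hin⟩, ← ex_val lam ⟨i, hin⟩] at h1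
          exact h1
      have hcut := hw_cut (J := J) (show R ≤ m by omega) (tl lam) (tl_anti hlam) w (fun i => by
        rw [← hw']
        exact Finset.single_le_sum (f := tl lam) (fun _ _ => Nat.zero_le _)
          (Finset.mem_univ i))
      have hgt : gt (m - R) J (low R (tl lam)) =
          gt (m + 1 - (R + 1)) (Z * X ^ 2) (low (R + 1) lam) := by
        rw [hJe]
        apply gt_congr (by omega)
        intro i
        rw [ex_low, ex_low, ex_tl]
        congr 1
        omega
      rw [hgt] at hcut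
      have hF1 : Few ≤ (w + 1) ^ (R * J) * gt (m + 1 - R) (Z * X ^ 2 + 1) (low R nu) :=
        hfew.trans (hcut.trans (Nat.mul_le_mul_left _ hbr))
      have hpw : 2 * (w + 1) ^ (R * J) ≤ (w + 1) ^ ((R + 1) * (Z * X ^ 2)) := by
        rw [← hJe, add_mul, one_mul, pow_add, mul_comm]
        apply Nat.mul_le_mul_left
        calc 2 ≤ w + 1 := by omega
          _ ≤ (w + 1) ^ J := Nat.le_self_pow (by omega) _
      have hF2 : 4 * Few ≤ 2 * ((w + 1) ^ ((R + 1) * (Z * X ^ 2)) *
          gt (m + 1 - R) (Z * X ^ 2 + 1) (low R nu)) := by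
        calc 4 * Few ≤ 4 * ((w + 1) ^ (R * J) * gt (m + 1 - R) (Z * X ^ 2 + 1) (low R nu)) :=
              Nat.mul_le_mul_left _ hF1
          _ = 2 * (2 * (w + 1) ^ (R * J) * gt (m + 1 - R) (Z * X ^ 2 + 1) (low R nu)) := by ring
          _ ≤ _ := Nat.mul_le_mul_left _ (Nat.mul_le_mul_right _ hpw)
      omega
    · have hpos : ∀ i, 0 < lam i := hpos.resolve_right hnJ
      have hJe := hJ.2 hnJ
      rw [hw_zero (by omega) (tl lam) (tl_anti hlam) (fun i => hpos _)] at hfew
      omega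
  have hup' : plethMult a b (m + 1) lam ≤ A0 + (Few + Bad) := le_trans (by convert hup) h2
  have hlow' : A0 + Good ≤ plethMult b a (m + 1) lam := le_trans h1 (by convert hlow)
  omega

end Vale.Agent.P181.DX.H357
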